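import Mathlib
import Vale.Agent.Lib.P015.Horn

namespace Vale.Agent.Results.P015.A_WideningRegion

/-- For every real `D` and every real line `{a + s * u : s ∈ ℝ}` in the complex plane
(`u ≠ 0`), there is no infinite sequence of pairwise distinct Gaussian primes with
successive distances at most `D` each of whose terms `z` lies within distance
`(log (2 + |z|)) ^ (1/4)` of the line (a region around the line whose width tends to
infinity). -/
theorem result (D : ℝ) (a u : ℂ) (hu : u ≠ 0) :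
    ¬ ∃ f : ℕ → GaussianInt, Function.Injective f ∧ (∀ n, Prime (f n)) ∧
      (∀ n, ‖(f (n + 1) : ℂ) - (f n : ℂ)‖ ≤ D) ∧
      (∀ n, ∃ s : ℝ, ‖(f n : ℂ) - (a + s * u)‖ ^ 4 ≤ Real.log (2 + ‖(f n : ℂ)‖)) := by
  rintro ⟨f, hinj, hprime, hstep, hnear⟩
  have hnu : (‖u‖ : ℝ) ≠ 0 := norm_ne_zero_iff.mpr hu
  have hv : ‖u / (‖u‖ : ℂ)‖ = 1 := by
    rw [norm_div, Complex.norm_real, norm_norm, div_self hnu]
  apply Vale.Agent.Lib.P015.no_walk_in_horn_unit D a (u / (‖u‖ : ℂ)) hv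
  refine ⟨f, hinj, hprime, hstep, ?_⟩
  intro n
  obtain ⟨s, hs⟩ := hnear n
  refine ⟨s * ‖u‖, ?_⟩
  have e : ((s * ‖u‖ : ℝ) : ℂ) * (u / (‖u‖ : ℂ)) = (s : ℂ) * u := by
    have hnu' : ((‖u‖ : ℝ) : ℂ) ≠ 0 := by exact_mod_cast hnu
    push_cast
    field_simp
  rw [e]
  exact hs

end Vale.Agent.Results.P015.A_WideningRegion
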