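import Mathlib
import Vale.Agent.Lib.P015.Disks

namespace Vale.Agent.Results.P015.C_DisksOnEveryLine

/-- For every real line `{a + s * u : s ∈ ℝ}` in the complex plane (`u ≠ 0`; no rationality
assumption on the line), every radius `R` and every bound `B`, there is a point `a + s * u`
of the line with parameter `s ≥ B` such that no Gaussian prime lies within distance `R`
of it. -/
theorem result (a u : ℂ) (hu : u ≠ 0) (R B : ℝ) :
    ∃ s : ℝ, B ≤ s ∧ ∀ z : GaussianInt, ‖(z : ℂ) - (a + s * u)‖ ≤ R → ¬ Prime z := by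
  have hnu : (‖u‖ : ℝ) ≠ 0 := norm_ne_zero_iff.mpr hu
  have hpos : (0 : ℝ) < ‖u‖ := norm_pos_iff.mpr hu
  have hv : ‖u / (‖u‖ : ℂ)‖ = 1 := by
    rw [norm_div, Complex.norm_real, norm_norm, div_self hnu]
  obtain ⟨s', hs', hdisk⟩ :=
    Vale.Agent.Lib.P015.exists_primeFree_disk_unit a (u / (‖u‖ : ℂ)) hv R (B * ‖u‖)
  refine ⟨s' / ‖u‖, ?_, ?_⟩
  · rw [le_div_iff₀ hpos]
    exact hs'
  · intro z hz
    apply hdisk z
    have e : (s' : ℂ) * (u / (‖u‖ : ℂ)) = ((s' / ‖u‖ : ℝ) : ℂ) * u := by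
      have hnu' : ((‖u‖ : ℝ) : ℂ) ≠ 0 := by exact_mod_cast hnu
      push_cast
      field_simp
    rw [e]
    exact hz

end Vale.Agent.Results.P015.C_DisksOnEveryLine
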